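import Crest.Agent.N111.Defs

/-!
# Row 111: the frozen module statements.  `Main.lean` proves `S0146` from them.
-/

set_option autoImplicit false

namespace Crest.Agent.N111

open MeasureTheory Topology Filter Matrix
open scoped InnerProductSpace
open Crest.OperatorAlgebra

/-- four points in general position -/
def x4 : Fin 4 → V := ![ev 0, ev 1, ev 2, ev 0 + ev 1 + ev 2]

section
variable {K : Type} [NormedAddCommGroup K] [InnerProductSpace ℂ K] [CompleteSpace K]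

/-- the wandering projections built from four boundary points -/
noncomputable def P4 (Φ : V → POVM V K) (O : Fin 4 → Set V) (g : G) : K →L[ℂ] K :=
  word (fun i => Φ (ac g (x4 i))) fun i => ic (O i)

end

/-- the data handed to the end game of (ii) -/
structure Setting.End2 {H : Type} [NormedAddCommGroup H] [InnerProductSpace ℂ H] [CompleteSpace H]
    (S : Setting (Fin 3) H) (s j₀ : H →L[ℂ] H) (𝒯 : Set (H →L[ℂ] H)) : Prop where
  pos : ∀ T ∈ 𝒯, 0 ≤ T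
  ne : ∃ T ∈ 𝒯, T ≠ 0
  conj : ∀ T ∈ 𝒯, ∀ γ, S.π γ * T * S.π γ⁻¹ ∈ 𝒯
  gen : ∀ T ∈ 𝒯, ∀ Z : H →L[ℂ] H, (∀ γ, Commute Z (S.π γ)) →
    (∀ μ, Commute Z (S.R (Pi.mulSingle 1 μ))) → Commute Z j₀ → Commute Z T
  tr : ∀ T ∈ 𝒯, ∃ B : ℝ, ∀ (η : H) (F : Finset Γ),
    ∑ μ ∈ F, (⟪S.R (Pi.mulSingle 1 μ) η, T (S.R (Pi.mulSingle 1 μ) η)⟫_ℂ).re ≤ B * ‖η‖ ^ 2
  cross : ∀ T ∈ 𝒯, ∀ T' ∈ 𝒯, Commute T (s * T' * s)

/-! ### Module I (abstract bookkeeping) -/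

def RelStmt : Prop :=
  ∀ (K : Type) [NormedAddCommGroup K] [InnerProductSpace ℂ K] [CompleteSpace K] (I : Ind K)
    (a : G →* G) (b : Γ →* Γ) (s : K →L[ℂ] K), (a = MonoidHom.id G ∨ a = dl) →
    (b = MonoidHom.id Γ ∨ b = dl) → star s = s → s * s = 1 → ∃ I', I.Rel I' a b s

def TightRelStmt : Prop :=
  ∀ (K : Type) [NormedAddCommGroup K] [InnerProductSpace ℂ K] [CompleteSpace K] (I I' : Ind K)
    (L : ℕ → ℝ), I.Tight L →
    (I.IsDual I' → I'.Tight L) ∧ ∀ s, star s = s → s * s = 1 → I.IsConj I' s → I'.Tight L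

/-! ### Module C (concentration) -/

def TightStmt : Prop :=
  ∀ (K : Type) [NormedAddCommGroup K] [InnerProductSpace ℂ K] [CompleteSpace K] (I : Ind K),
    I.Conc → I.NoFlag → ∃ L, I.Tight L ∨ ∀ I', I.IsTw I' → I'.Tight L

def AmenStmt : Prop :=
  ∀ (K : Type) [NormedAddCommGroup K] [InnerProductSpace ℂ K] [CompleteSpace K] (I : Ind K),
    I.PP → I.NoFlag

def ConcStmt : Prop :=
  ∀ (κ H : Type) [Fintype κ] [DecidableEq κ] [NormedAddCommGroup H] [InnerProductSpace ℂ H]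
    [CompleteSpace H] (S : Setting κ H) (i : κ) (j₀ : H →L[ℂ] H) (I : Ind (L2X H)),
    S.IsInd i j₀ I → I.Conc

/-! ### Modules D, E, F, O, X (boundary geometry) -/

def ProStmt : Prop :=
  ∀ (K : Type) [NormedAddCommGroup K] [InnerProductSpace ℂ K] [CompleteSpace K] (I I' : Ind K)
    (L : ℕ → ℝ), I.IsDual I' → I.Tight L → I'.Tight L →
    ∃ Φ Ψ, I.IsPro Φ ∧ I'.IsPro Ψ ∧ Ind.IsInc Φ Ψ

def LiftStmt : Prop :=
  ∀ (K : Type) [NormedAddCommGroup K] [InnerProductSpace ℂ K] [CompleteSpace K] (I : Ind K)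
    (L : ℕ → ℝ) (Φ : V → POVM V K), I.Tight L → I.IsPro Φ → ∃ A sc, I.IsLift L Φ A sc

def LiftCommStmt : Prop :=
  ∀ (K : Type) [NormedAddCommGroup K] [InnerProductSpace ℂ K] [CompleteSpace K] (I I' : Ind K)
    (L : ℕ → ℝ) (Φ Ψ A : V → POVM V K) (sc : ℝ → ℝ), I.IsDual I' → I.Tight L → I'.Tight L →
    I.IsPro Φ → I'.IsPro Ψ → Ind.IsInc Φ Ψ → I.IsLift L Φ A sc →
    ∀ x y, x ≠ 0 → y ≠ 0 → x ⬝ᵥ y = 0 → ∀ f h, BM f → BM h → Commute ((A x).E f) ((Ψ y).E h)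

def ComStmt : Prop :=
  ∀ (K : Type) [NormedAddCommGroup K] [InnerProductSpace ℂ K] [CompleteSpace K] (I I' : Ind K)
    (L : ℕ → ℝ) (Φ Ψ A B : V → POVM V K) (sc sc' : ℝ → ℝ),
    Geo I I' L Φ Ψ A B sc sc' → Com L A B sc sc'

def OutStmt : Prop :=
  ∀ (K : Type) [NormedAddCommGroup K] [InnerProductSpace ℂ K] [CompleteSpace K] (I I' : Ind K)
    (L : ℕ → ℝ) (Φ Ψ A B : V → POVM V K) (sc sc' : ℝ → ℝ),
    Geo I I' L Φ Ψ A B sc sc' → Com L A B sc sc' →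
    ∃ O : Fin 4 → Set V, (∀ i, MeasurableSet (O i)) ∧ I.Out (P4 Φ O)

def UniqStmt : Prop :=
  ∀ (K : Type) [NormedAddCommGroup K] [InnerProductSpace ℂ K] [CompleteSpace K] (I I₃ : Ind K)
    (s : K →L[ℂ] K) (Φ Φ₃ : V → POVM V K), star s = s → s * s = 1 → (∀ g, Commute s (I.U g)) →
    I.IsConj I₃ s → I.IsPro Φ → I₃.IsPro Φ₃ →
    ∀ x, x ≠ 0 → ∀ f, BM f → (Φ₃ x).E f = s * (Φ x).E f * s

def CrossStmt : Prop :=
  ∀ (K : Type) [NormedAddCommGroup K] [InnerProductSpace ℂ K] [CompleteSpace K]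
    (I I₃ I₃' : Ind K) (s : K →L[ℂ] K) (L : ℕ → ℝ) (Φ Φ₃ Ψ₃ A₃ B₃ : V → POVM V K)
    (sc sc' : ℝ → ℝ), I.Two s → I.IsConj I₃ s → I.Tight L → I.IsPro Φ →
    Geo I₃ I₃' L Φ₃ Ψ₃ A₃ B₃ sc sc' → Com L A₃ B₃ sc sc' →
    ∀ x x', x ≠ 0 → x' ≠ 0 → ∀ f g, BM f → BM g → Commute ((Φ x).E f) ((Φ₃ x').E g)

/-! ### Module B (induction and descent) -/

def IndStmt : Prop :=
  ∀ (κ H : Type) [Fintype κ] [DecidableEq κ] [NormedAddCommGroup H] [InnerProductSpace ℂ H]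
    [CompleteSpace H] (S : Setting κ H) (i : κ), ∃ j₀ I, S.IsInd i j₀ I

def PPStmt : Prop :=
  ∀ (κ H : Type) [Fintype κ] [DecidableEq κ] [NormedAddCommGroup H] [InnerProductSpace ℂ H]
    [CompleteSpace H] (S : Setting κ H) (i : κ) (j₀ : H →L[ℂ] H) (I : Ind (L2X H)),
    S.IsInd i j₀ I → I.PP

def TwoStmt : Prop :=
  ∀ (H : Type) [NormedAddCommGroup H] [InnerProductSpace ℂ H] [CompleteSpace H]
    (S : Setting (Fin 3) H) (s j₀ : H →L[ℂ] H) (I : Ind (L2X H)),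
    S.Flip s → S.IsInd 1 j₀ I → I.Two (amp s)

def CoreIStmt : Prop :=
  ∀ (H : Type) [NormedAddCommGroup H] [InnerProductSpace ℂ H] [CompleteSpace H]
    (S : Setting Unit H) (j₀ : H →L[ℂ] H) (I : Ind (L2X H)) (P : G → L2X H →L[ℂ] L2X H),
    S.IsInd () j₀ I → I.Out P → 1 ≤ ‖S.ξ‖

def CoreIIStmt : Prop :=
  ∀ (H : Type) [NormedAddCommGroup H] [InnerProductSpace ℂ H] [CompleteSpace H]
    (S : Setting (Fin 3) H) (s j₀ : H →L[ℂ] H) (I : Ind (L2X H)) (P : G → L2X H →L[ℂ] L2X H),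
    S.Flip s → S.IsInd 1 j₀ I → I.Out P →
    (∀ g g', Commute (P g) (amp s * P g' * amp s)) → ∃ 𝒯, S.End2 s j₀ 𝒯

/-! ### Module A (von Neumann algebras) -/

def RedIStmt : Prop :=
  ∀ p ∈ groupVonNeumann Γ, p * p = p → star p = p → p ≠ 1 →
    (∃ φ, IsStarAlgIso (groupVonNeumann Γ) (corner (groupVonNeumann Γ) p) φ) →
    ∃ (H : Type) (_ : NormedAddCommGroup H) (_ : InnerProductSpace ℂ H) (_ : CompleteSpace H)
      (S : Setting Unit H), ‖S.ξ‖ < 1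

def RedIIStmt : Prop :=
  ∀ (Λ : Type) [Group Λ] [Countable Λ] [Infinite Λ], IsICC Λ →
    (∃ φ, IsStarAlgIso (groupVonNeumann Λ) (groupVonNeumann Γ) φ) →
    ∃ (H : Type) (_ : NormedAddCommGroup H) (_ : InnerProductSpace ℂ H) (_ : CompleteSpace H)
      (S : Setting (Fin 3) H) (s : H →L[ℂ] H), S.Flip s ∧
      ∀ j₀ 𝒯, S.IsJ 1 j₀ → S.End2 s j₀ 𝒯 → Nonempty (Λ ≃* Γ)

end Crest.Agent.N111
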