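import Crest.Agent.N111.Lat.Erg
import Crest.Prelude.Def_GroupVonNeumann

/-!
# Row 111: frozen definitions (captain helper57).

Conventions.  `V = Fin 3 → ℝ` with the SUP norm.  `ι : Γ →* G` is the inclusion, `dl g = g⁻¹ᵀ` the
duality.  The target representation `ρ` acts on the position index `μ` by LEFT translation; the
source acts by right convolutions.  Points and lines are both vectors; lines are the points of the
dual structure `I.dual`.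
-/

set_option autoImplicit false

namespace Crest.Agent.N111

open MeasureTheory Topology Filter Matrix
open scoped InnerProductSpace

/-! ## Linear geometry -/

abbrev V : Type := Fin 3 → ℝ

/-- standard basis vector -/
def ev (i : Fin 3) : V := Pi.single i 1

/-- the duality `g ↦ g⁻¹ᵀ` -/
def dl {R : Type} [CommRing R] :
    Matrix.SpecialLinearGroup (Fin 3) R →* Matrix.SpecialLinearGroup (Fin 3) R where
  toFun g := (g⁻¹).transpose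
  map_one' := by ext i j; simp [Matrix.SpecialLinearGroup.transpose]
  map_mul' g h := by
    apply Subtype.ext
    simp [Matrix.SpecialLinearGroup.transpose]

/-- the linear action of `G` on `V` -/
def ac (g : G) (a : V) : V := (g : Matrix (Fin 3) (Fin 3) ℝ) *ᵥ a

/-- largest absolute value of an entry -/
noncomputable def nm (g : G) : ℝ := ‖(fun i j => g i j : Fin 3 → Fin 3 → ℝ)‖

/-- index of a column of largest sup norm -/
noncomputable def jm (μ : Γ) : Fin 3 :=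
  (Finite.exists_max fun j : Fin 3 => ‖ac (ι μ) (ev j)‖).choose

/-- a column of largest norm: the (approximate) attracting point of `μ`; `‖pt μ‖ = nm (ι μ)` -/
noncomputable def pt (μ : Γ) : V := ac (ι μ) (ev (jm μ))

/-- the flow `diag(e^{-2s}, e^s, e^s)` -/
noncomputable def al (s : ℝ) : G := dg (-2 * s) s

/-- the wall shell at level `L` and width `R` -/
def Sh (L R : ℝ) : Set Γ :=
  {μ | |Real.log (nm (ι μ)) - 2 * L| ≤ R ∧ Real.log (nm (ι μ⁻¹)) ≤ L + R}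

/-- radial projection to the unit sphere of the sup norm -/
noncomputable def nrm (a : V) : V := ‖a‖⁻¹ • a

/-- lexicographic positivity -/
def LexPos (a : V) : Prop := 0 < a 0 ∨ (a 0 = 0 ∧ 0 < a 1) ∨ (a 0 = 0 ∧ a 1 = 0 ∧ 0 < a 2)

open Classical in
/-- the Borel section of `V → V/±` -/
noncomputable def sg (a : V) : V := if LexPos a then a else -a

/-- even functions -/
def Ev {Y : Type} [Neg Y] (f : Y → ℂ) : Prop := ∀ a, f (-a) = f a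

/-- functions of the projective point: invariant under all nonzero scalars -/
def Hom0 (f : V → ℂ) : Prop := ∀ z : ℝ, z ≠ 0 → ∀ a, f (z • a) = f a

/-! ## Borel operator valued measures and words -/

/-- bounded measurable -/
def BM {Y : Type} [MeasurableSpace Y] (f : Y → ℂ) : Prop := Measurable f ∧ ∃ C, ∀ y, ‖f y‖ ≤ C

/-- indicator function -/
noncomputable def ic {Y : Type} (O : Set Y) : Y → ℂ := O.indicator fun _ => 1

/-- a normalised positive operator valued measure with its bounded Borel calculus -/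
structure POVM (Y K : Type) [MeasurableSpace Y] [NormedAddCommGroup K] [InnerProductSpace ℂ K] where
  E : (Y → ℂ) → K →L[ℂ] K
  ν : K → Measure Y
  fin : ∀ η, IsFiniteMeasure (ν η)
  inner_E : ∀ f, BM f → ∀ η, ⟪η, E f η⟫_ℂ = ∫ y, f y ∂(ν η)
  E_one : E (fun _ => 1) = 1

section
variable {Y Z K : Type} [MeasurableSpace Y] [MeasurableSpace Z] [NormedAddCommGroup K]
  [InnerProductSpace ℂ K]

/-- projection valued -/
def POVM.IsPVM (P : POVM Y K) : Prop :=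
  ∀ f g, BM f → BM g → P.E (fun y => f y * g y) = P.E f * P.E g

/-- push-forward -/
noncomputable def POVM.map (P : POVM Y K) (φ : Y → Z) (hφ : Measurable φ) : POVM Z K where
  E f := P.E (fun y => f (φ y))
  ν η := (P.ν η).map φ
  fin η := by have := P.fin η; infer_instance
  inner_E f hf η := by
    obtain ⟨hm, C, hC⟩ := hf
    rw [P.inner_E (fun y => f (φ y)) ⟨hm.comp hφ, C, fun y => hC _⟩,
      integral_map hφ.aemeasurable hm.aestronglyMeasurable]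
  E_one := P.E_one

/-- operator valued polymeasures: multilinear on bounded Borel functions, bounded, and strongly
continuous along bounded pointwise convergent sequences -/
structure IsPoly {κ : Type} [Fintype κ] [DecidableEq κ] (W : (κ → Y → ℂ) → K →L[ℂ] K) : Prop where
  add : ∀ f i g h, (∀ k, BM (f k)) → BM g → BM h →
    W (Function.update f i fun y => g y + h y)
      = W (Function.update f i g) + W (Function.update f i h)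
  smul : ∀ f i (c : ℂ) g, (∀ k, BM (f k)) → BM g →
    W (Function.update f i fun y => c * g y) = c • W (Function.update f i g)
  bdd : ∃ C : ℝ, ∀ f, (∀ k, Measurable (f k)) → (∀ k y, ‖f k y‖ ≤ 1) → ‖W f‖ ≤ C
  lim : ∀ (f : ℕ → κ → Y → ℂ) (g : κ → Y → ℂ) (C : ℝ), (∀ n k, Measurable (f n k)) →
    (∀ n k y, ‖f n k y‖ ≤ C) → (∀ k y, Tendsto (fun n => f n k y) atTop (𝓝 (g k y))) →
    ∀ η, Tendsto (fun n => W (f n) η) atTop (𝓝 (W g η))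

/-- `W` vanishes on all functions supported in the box `O` -/
def NullOn {κ : Type} (W : (κ → Y → ℂ) → K →L[ℂ] K) (O : κ → Set Y) : Prop :=
  ∀ f : κ → Y → ℂ, (∀ k, BM (f k)) → (∀ k y, y ∉ O k → f k y = 0) → W f = 0

/-- the support of a polymeasure -/
def supp {κ : Type} [TopologicalSpace Y] (W : (κ → Y → ℂ) → K →L[ℂ] K) : Set (κ → Y) :=
  {z | ∀ O : κ → Set Y, (∀ k, O k ∈ 𝓝 (z k)) → ¬ NullOn W O}

/-- the word `P₀(f₀) P₁(f₁) ⋯` -/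
noncomputable def word {n : ℕ} (P : Fin n → POVM Y K) (f : Fin n → Y → ℂ) : K →L[ℂ] K :=
  (List.ofFn fun i => (P i).E (f i)).prod

/-- strongly continuous and bounded -/
def SCont {Ω : Type} [TopologicalSpace Ω] (F : Ω → K →L[ℂ] K) : Prop :=
  (∀ η, Continuous fun ω => F ω η) ∧ ∃ C, ∀ ω, ‖F ω‖ ≤ C

open Classical in
/-- the strong integral `η ↦ ∫ c ω • F ω η` (zero if there is no such bounded operator) -/
noncomputable def sInt {Ω : Type} [MeasurableSpace Ω] (m : Measure Ω) (c : Ω → ℂ)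
    (F : Ω → K →L[ℂ] K) : K →L[ℂ] K :=
  if h : ∃ T : K →L[ℂ] K, ∀ η, T η = ∫ ω, c ω • F ω η ∂m then h.choose else 0

/-- `ℓ²(Γ; K)` -/
abbrev LG (K : Type) [NormedAddCommGroup K] : Type := lp (fun _ : Γ => K) 2

/-- square summable rows -/
def RowBd (T : Γ → K →L[ℂ] K) (C : ℝ) : Prop :=
  ∀ (η : K) (F : Finset Γ), ∑ μ ∈ F, ‖T μ η‖ ^ 2 ≤ C ^ 2 * ‖η‖ ^ 2

open Classical in
/-- the operator `K → ℓ²(Γ; K)` with rows `T μ` (zero if there is none) -/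
noncomputable def rows (T : Γ → K →L[ℂ] K) : K →L[ℂ] LG K :=
  if h : ∃ S : K →L[ℂ] LG K, ∀ η μ, S η μ = T μ η then h.choose else 0

end

/-! ## The abstract induced structure -/

/-- The induced bimodule.  Model: `K = L²(X; H)`, `U = ind π`, `C = {a ⊗ c(h)}`, `j*j` = projection
onto the position `μ = e`, `ξ = 1 ⊗ ξ₀`, `y g` = the field `π (coc g x)`. -/
structure Ind (K : Type) [NormedAddCommGroup K] [InnerProductSpace ℂ K] [CompleteSpace K] where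
  U : URep G K
  ρ : URep Γ K
  C : Set (K →L[ℂ] K)
  j : K →L[ℂ] K
  ξ : K
  y : G → K →L[ℂ] K
  cont : U.Cont
  Uρ : ∀ g μ, Commute (U g) (ρ μ)
  one_C : 1 ∈ C
  mul_C : ∀ a ∈ C, ∀ b ∈ C, a * b ∈ C
  star_C : ∀ a ∈ C, star a ∈ C
  conj_C : ∀ a ∈ C, ∀ g, U g * a * U g⁻¹ ∈ C
  Cρ : ∀ a ∈ C, ∀ μ, Commute a (ρ μ)
  Cj : ∀ a ∈ C, Commute a j
  j_sa : star j = j
  pars : ∀ η, HasSum (fun μ => ‖j (ρ μ⁻¹ η)‖ ^ 2) (‖η‖ ^ 2)
  ξ_ne : ξ ≠ 0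
  dense : Dense (Submodule.span ℂ {η | ∃ a ∈ C, ∃ μ, η = a (ρ μ ξ)} : Set K)
  bes : ∀ Y ∈ C.centralizer, ∀ F : Finset Γ,
    ∑ μ ∈ F, ‖j (Y (ρ μ⁻¹ ξ))‖ ^ 2 ≤ ‖star Y ξ‖ ^ 2
  sym : ∀ T ∈ C.centralizer, (∀ μ, Commute T (ρ μ)) → ∀ μ,
    ‖j (ρ μ⁻¹ (T ξ))‖ = ‖j (ρ μ (star T ξ))‖
  y_N : ∀ g, y g ∈ C.centralizer
  y_ρ : ∀ g μ, Commute (y g) (ρ μ)
  y_un : ∀ g, y g ∈ unitary (K →L[ℂ] K)
  V_j : ∀ g, Commute (U g * star (y g)) j
  V_ξ : ∀ g, U g (star (y g) ξ) = ξ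
  erg : ∀ T ∈ C.centralizer, (∀ μ, Commute T (ρ μ)) → ∀ (i k : Fin 3) (h : i ≠ k),
    (∀ b, Commute T (U (tv h b))) → ∃ c : ℂ, T = c • (1 : K →L[ℂ] K)
  mix : ∀ T ∈ C.centralizer, (∀ μ, Commute T (ρ μ)) → ∀ (a b : ℕ → ℝ) (i k : Fin 3),
    Tendsto (fun n => dgl (a n) (b n) i - dgl (a n) (b n) k) atTop atTop →
    WTends atTop (fun n => U (dg (a n) (b n)) * T * U (dg (a n) (b n))⁻¹)
      ((⟪ξ, T ξ⟫_ℂ / (‖ξ‖ ^ 2 : ℝ)) • (1 : K →L[ℂ] K))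
  trk : ∃ ω : (K →L[ℂ] K) →ₗ[ℂ] ℂ, ω 1 = 1 ∧ (∀ T, 0 ≤ T → 0 ≤ (ω T).re) ∧
    ∀ T ∈ C.centralizer, (∀ g, Commute T (U g)) → ∀ μ, ω (ρ μ * T * ρ μ⁻¹) = ω T
  sep : Dense (Submodule.span ℂ {η | (∃ a ∈ C, ∃ μ, η = a (ρ μ ξ)) ∧ ∃ B R : ℝ,
    ∀ Y ∈ C.centralizer, ∀ (n : ℕ) (g : Fin n → G), (∀ i k, i ≠ k → R < nm ((g i)⁻¹ * g k)) →
      ∑ i, ‖j (Y (U (g i) η))‖ ^ 2 ≤ B * ‖star Y ξ‖ ^ 2} : Set K)

namespace Ind

variable {K : Type} [NormedAddCommGroup K] [InnerProductSpace ℂ K] [CompleteSpace K] (I : Ind K)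

/-- the commutant of the coefficients -/
def N : Set (K →L[ℂ] K) := I.C.centralizer

/-- the finite algebra -/
def Q : Set (K →L[ℂ] K) := {T | T ∈ I.N ∧ ∀ μ, Commute T (I.ρ μ)}

/-- the isometry `K → ℓ²(Γ; K)` -/
noncomputable def J : K →L[ℂ] LG K := rows fun μ => I.j * I.ρ μ⁻¹

/-- `F · J` -/
noncomputable def mJ (F : Γ → ℂ) : K →L[ℂ] LG K := rows fun μ => F μ • (I.j * I.ρ μ⁻¹)

/-- the position POVM `m F = J* F J` -/
noncomputable def m (F : Γ → ℂ) : K →L[ℂ] K := ContinuousLinearMap.adjoint I.J ∘L I.mJ F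

/-- Bessel vectors -/
def Bes (B : ℝ) (η : K) : Prop :=
  ∀ Y ∈ I.N, ∀ F : Finset Γ, ∑ μ ∈ F, ‖I.j (Y (I.ρ μ⁻¹ η))‖ ^ 2 ≤ B ^ 2 * ‖star Y I.ξ‖ ^ 2

/-- `σ k T = U(α_k)⁻¹ T U(α_k)` -/
noncomputable def σ (k : ℕ) (T : K →L[ℂ] K) : K →L[ℂ] K := I.U (al k)⁻¹ * T * I.U (al k)

/-- the mass of `U(α_k) ξ` against `F` -/
noncomputable def ms (k : ℕ) (F : Γ → ℝ) : ℝ :=
  ∑' μ, F μ * ‖I.j (I.ρ μ⁻¹ (I.U (al k) I.ξ))‖ ^ 2

/-- weak limits of position operators along the flow -/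
def LimSet : Set (K →L[ℂ] K) :=
  {T | ∃ (l : Filter ℕ) (F : ℕ → Γ → ℂ), l.NeBot ∧ l ≤ atTop ∧ (∀ k μ, ‖F k μ‖ ≤ 1) ∧
    WTends l (fun k => I.σ k (I.m (F k))) T}

/-- tightness on the point shells at levels `L k` -/
def Tight (L : ℕ → ℝ) : Prop :=
  Tendsto L atTop atTop ∧ ∀ ε > 0, ∃ R, ∀ᶠ k in atTop,
    I.ms k ((Sh (L k) R)ᶜ.indicator fun _ => 1) ≤ ε

/-- concentration of two-sided slowly varying functions -/
def Conc : Prop :=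
  ∀ (k : ℕ → ℕ) (F : ℕ → Γ → ℝ), (∀ n μ, F n μ ∈ Set.Icc (0 : ℝ) 1) →
    (∀ ν : Γ, ∀ ε > 0, ∀ᶠ n in atTop, ∀ μ,
      |F n (ν * μ) - F n μ| ≤ ε ∧ |F n (μ * ν) - F n μ| ≤ ε) →
    Tendsto (fun n => ‖I.ξ‖ ^ 2 * I.ms (k n) (fun μ => F n μ ^ 2) - I.ms (k n) (F n) ^ 2)
      atTop (𝓝 0)

/-- no covariant POVM on flags commutes with `SL₂(ℝ)` -/
def NoFlag : Prop :=
  ∀ P : POVM (V × V) K,
    P.E (ic {z | ‖z.1‖ = 1 ∧ ‖z.2‖ = 1 ∧ z.1 ⬝ᵥ z.2 = 0}) = 1 →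
    (∀ f, BM f → P.E f ∈ I.N) →
    (∀ f, BM f → ∀ b, Commute (P.E f) (I.U (tv (show (1 : Fin 3) ≠ 2 by decide) b)) ∧
      Commute (P.E f) (I.U (tv (show (2 : Fin 3) ≠ 1 by decide) b))) →
    (∀ f, BM f → (∀ a b, f (-a, b) = f (a, b) ∧ f (a, -b) = f (a, b)) → ∀ ν : Γ,
      I.ρ ν * P.E f * I.ρ ν⁻¹
        = P.E fun z => f (nrm (ac (ι ν⁻¹) z.1), nrm (ac (ι (dl ν⁻¹)) z.2))) → False

/-- ping-pong pair: a `U`-covariant POVM on `G`, seen through two functions -/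
def PP : Prop :=
  ∃ E₁ ∈ I.N, ∃ E₂ ∈ I.N, ∃ B : ℝ, 0 ≤ E₁ ∧ 0 ≤ E₂ ∧ E₁ + E₂ = 1 ∧ ∀ n : ℕ,
    ∑ r ∈ Finset.range n, I.U (tv (show (2 : Fin 3) ≠ 1 by decide) r)⁻¹ * E₁
      * I.U (tv (show (2 : Fin 3) ≠ 1 by decide) r) ≤ (B : ℂ) • (1 : K →L[ℂ] K) ∧
    ∑ r ∈ Finset.range n, I.U (tv (show (1 : Fin 3) ≠ 2 by decide) r)⁻¹ * E₂
      * I.U (tv (show (1 : Fin 3) ≠ 2 by decide) r) ≤ (B : ℂ) • (1 : K →L[ℂ] K)

/-- `I'` has the data of `I` with `U`, `ρ` precomposed by `a`, `b` and everything conjugated by the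
unitary involution `s` -/
structure Rel (I' : Ind K) (a : G →* G) (b : Γ →* Γ) (s : K →L[ℂ] K) : Prop where
  U : ∀ g, I'.U g = s * I.U (a g) * s
  ρ : ∀ μ, I'.ρ μ = s * I.ρ (b μ) * s
  C : I'.C = (fun c => s * c * s) '' I.C
  j : I'.j = s * I.j * s
  ξ : I'.ξ = s I.ξ

/-- duality on both sides -/
def IsDual (I' : Ind K) : Prop := I.Rel I' dl dl 1

/-- duality on the target only -/
def IsTw (I' : Ind K) : Prop := I.Rel I' (MonoidHom.id G) dl 1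

/-- conjugation -/
def IsConj (I' : Ind K) (s : K →L[ℂ] K) : Prop := I.Rel I' (MonoidHom.id G) (MonoidHom.id Γ) s

/-- two legs exchanged by the flip `s` -/
structure Two (s : K →L[ℂ] K) : Prop where
  s_sa : star s = s
  s_s : s * s = 1
  s_U : ∀ g, Commute s (I.U g)
  s_y : ∀ g, Commute s (I.y g)
  s_ξ : s I.ξ = I.ξ
  ρ_C : ∀ μ, s * I.ρ μ * s ∈ I.C
  Cρ : ∀ a ∈ I.C, ∀ μ, ∃ a' ∈ I.C, ∃ μ', s * (a * I.ρ μ) * s = a' * I.ρ μ'
  jj : I.j * I.j = I.j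
  jρj : ∀ μ, μ ≠ 1 → I.j * I.ρ μ * I.j = 0
  j_j : Commute I.j (s * I.j * s)

/-- the final output: an equivariant family of wandering projections -/
structure Out (P : G → K →L[ℂ] K) : Prop where
  sa : ∀ g, star (P g) = P g
  idem : ∀ g, P g * P g = P g
  cov : ∀ h g, I.U h * P g * I.U h⁻¹ = P (h * g)
  wand : ∀ g μ, μ ≠ 1 → P g * I.ρ μ * P g = 0
  ne : P 1 ≠ 0
  mem : ∀ g, P g ∈ I.N
  gen : ∀ S : K →L[ℂ] K, (∀ g, Commute S (I.U g)) → (∀ μ, Commute S (I.ρ μ)) → Commute S I.j →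
    ∀ g, Commute S (P g)

/-! ## Boundary geometry -/

/-- the boundary PVM on points (concentrated on the section of the unit sphere) -/
structure IsPro (Φ : V → POVM V K) : Prop where
  pvm : ∀ x, (Φ x).IsPVM
  conc : ∀ x f, BM f → (Φ x).E f = (Φ x).E fun a => f (sg (nrm a))
  zero : ∀ x, (Φ x).E (ic {0}) = 0
  covU : ∀ x, x ≠ 0 → ∀ f, BM f → ∀ g, I.U g * (Φ x).E f * I.U g⁻¹ = (Φ (ac g x)).E f
  scal : ∀ x, x ≠ 0 → ∀ z : ℝ, z ≠ 0 → ∀ f, BM f → (Φ (z • x)).E f = (Φ x).E f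
  covρ : ∀ x, x ≠ 0 → ∀ f, BM f → Hom0 f → ∀ ν : Γ,
    I.ρ ν * (Φ x).E f * I.ρ ν⁻¹ = (Φ x).E fun a => f (ac (ι ν⁻¹) a)
  gen : ∀ S : K →L[ℂ] K, (∀ T ∈ I.LimSet, Commute S T) → ∀ f, BM f → Commute S ((Φ (ev 0)).E f)
  strong : ∀ f, BM f → Hom0 f → ContinuousOn f {0}ᶜ → ∀ η,
    Tendsto (fun k : ℕ => I.mJ (fun μ => f (pt μ)) (I.U (al k) η)
      - I.J (I.U (al k) ((Φ (ev 0)).E f η))) atTop (𝓝 0)

/-- points `Φ` (for `I`) and lines `Ψ` (for the dual): incidence and commutation -/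
structure IsInc (Φ Ψ : V → POVM V K) : Prop where
  inc : ∀ x y, x ≠ 0 → y ≠ 0 → x ⬝ᵥ y = 0 → ∀ z ∈ supp (word ![Φ x, Ψ y]), z 0 ⬝ᵥ z 1 = 0
  comm : ∀ x y, x ≠ 0 → y ≠ 0 → x ⬝ᵥ y = 0 → ∀ f h, BM f → BM h →
    Commute ((Φ x).E f) ((Ψ y).E h)

/-- the lifted PVM on `V/±` -/
structure IsLift (L : ℕ → ℝ) (Φ A : V → POVM V K) (sc : ℝ → ℝ) : Prop where
  pvm : ∀ x, (A x).IsPVM
  conc : ∀ x f, BM f → (A x).E f = (A x).E fun a => f (sg a)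
  zero : ∀ x, (A x).E (ic {0}) = 0
  proj : ∀ x, x ≠ 0 → ∀ f, BM f → (Φ x).E f = (A x).E fun a => f (nrm a)
  covU : ∀ x, x ≠ 0 → ∀ f, BM f → ∀ g, I.U g * (A x).E f * I.U g⁻¹ = (A (ac g x)).E f
  sc_pos : ∀ z, z ≠ 0 → 0 < sc z
  sc_mul : ∀ z w, z ≠ 0 → w ≠ 0 → sc (z * w) = sc z * sc w
  scal : ∀ x, x ≠ 0 → ∀ z : ℝ, z ≠ 0 → ∀ f, BM f →
    (A (z • x)).E f = (A x).E fun a => f (sc z • a)
  covρ : ∀ x, x ≠ 0 → ∀ f, BM f → Ev f → ∀ ν : Γ,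
    I.ρ ν * (A x).E f * I.ρ ν⁻¹ = (A x).E fun a => f (ac (ι ν⁻¹) a)
  gen : ∀ S : K →L[ℂ] K, (∀ T ∈ I.LimSet, Commute S T) → ∀ f, BM f → Commute S ((A (ev 0)).E f)
  lift : ∃ l : Filter ℕ, l.NeBot ∧ l ≤ atTop ∧ ∃ t₀ > (0 : ℝ), ∀ t : ℝ, |t| < t₀ →
    ∃ c : ℂ, c ≠ 0 ∧ WTends l
      (fun k => I.σ k (I.m fun μ =>
        Complex.exp (Complex.I * (t * (Real.log (nm (ι μ)) - 2 * L k) : ℝ))))
      (c • (A (ev 0)).E fun a => Complex.exp (Complex.I * (t * Real.log ‖a‖ : ℝ)))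

end Ind

section
variable {K : Type} [NormedAddCommGroup K] [InnerProductSpace ℂ K] [CompleteSpace K]

/-- all the boundary data of `I` and of its dual `I'` (output of modules D and E) -/
structure Geo (I I' : Ind K) (L : ℕ → ℝ) (Φ Ψ A B : V → POVM V K) (sc sc' : ℝ → ℝ) : Prop where
  dual : I.IsDual I'
  tight : I.Tight L
  tight' : I'.Tight L
  pro : I.IsPro Φ
  pro' : I'.IsPro Ψ
  inc : Ind.IsInc Φ Ψ
  lift : I.IsLift L Φ A sc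
  lift' : I'.IsLift L Ψ B sc'
  AΨ : ∀ x y, x ≠ 0 → y ≠ 0 → x ⬝ᵥ y = 0 → ∀ f h, BM f → BM h → Commute ((A x).E f) ((Ψ y).E h)
  BΦ : ∀ x y, x ≠ 0 → y ≠ 0 → x ⬝ᵥ y = 0 → ∀ f h, BM f → BM h → Commute ((Φ x).E f) ((B y).E h)

/-- `L k` is the logarithmic scaling of the lift -/
def LC (L : ℕ → ℝ) (sc : ℝ → ℝ) : Prop :=
  ∃ C : ℝ, ∀ᶠ k : ℕ in atTop, |Real.log (sc (Real.exp (2 * k))) - 2 * L k| ≤ C

/-- commutativity of the boundary geometry (output of module F) -/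
structure Com (L : ℕ → ℝ) (A B : V → POVM V K) (sc sc' : ℝ → ℝ) : Prop where
  AA : ∀ x x', x ≠ 0 → x' ≠ 0 → ∀ f g, BM f → BM g → Commute ((A x).E f) ((A x').E g)
  AB : ∀ x y, x ≠ 0 → y ≠ 0 → ∀ f g, BM f → BM g → Commute ((A x).E f) ((B y).E g)
  lc : LC L sc
  lc' : LC L sc'
  cross : ∃ k > (0 : ℝ), ∀ z ∈ supp (word ![A (ev 0), A (ev 1), B (ev 2)]), (∀ i, z i ≠ 0) →
    z 0 ⨯₃ z 1 = k • z 2 ∨ z 0 ⨯₃ z 1 = -(k • z 2)
  det : ∃ D > (0 : ℝ), ∀ z ∈ supp (word ![A (ev 0), A (ev 1), A (ev 2)]), (∀ i, z i ≠ 0) →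
    |z 0 ⬝ᵥ (z 1 ⨯₃ z 2)| = D

end

/-! ## The discrete setting -/

/-- `H` with commuting representations of the source `Γ` and of the target `Γ^κ`, and a vector whose
target orbit is a Parseval frame -/
structure Setting (κ H : Type) [Fintype κ] [DecidableEq κ] [NormedAddCommGroup H]
    [InnerProductSpace ℂ H] [CompleteSpace H] where
  π : URep Γ H
  R : URep (κ → Γ) H
  ξ : H
  comm : ∀ γ g, Commute (π γ) (R g)
  ξ_ne : ξ ≠ 0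
  pars : ∀ η, HasSum (fun g => ‖⟪R g ξ, η⟫_ℂ‖ ^ 2) (‖η‖ ^ 2)
  orth : ∀ i γ g, g i = 1 → ¬ (γ = 1 ∧ g = 1) → ⟪ξ, π γ (R g ξ)⟫_ℂ = 0
  erg : ∃ L : URep Γ H, ErgData (Set.range R) π L ξ
  tr : ∀ i, ∃ ω : (H →L[ℂ] H) →ₗ[ℂ] ℂ, ω 1 = 1 ∧ (∀ T, 0 ≤ T → 0 ≤ (ω T).re) ∧
    ∀ T, (∀ γ, Commute T (π γ)) → (∀ g, g i = 1 → Commute T (R g)) →
      ∀ μ, ω (R (Pi.mulSingle i μ) * T * R (Pi.mulSingle i μ)⁻¹) = ω T

namespace Setting

variable {κ H : Type} [Fintype κ] [DecidableEq κ] [NormedAddCommGroup H] [InnerProductSpace ℂ H]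
  [CompleteSpace H] (S : Setting κ H)

/-- `j₀* j₀` is the position operator `{g i = 1}` -/
def IsJ (i : κ) (j₀ : H →L[ℂ] H) : Prop :=
  0 ≤ j₀ ∧ ∀ η, HasSum (fun g : {g : κ → Γ // g i = 1} => ‖⟪S.R g S.ξ, η⟫_ℂ‖ ^ 2) (‖j₀ η‖ ^ 2)

/-- `I` is the structure induced from leg `i` -/
structure IsInd (i : κ) (j₀ : H →L[ℂ] H) (I : Ind (L2X H)) : Prop where
  hj : S.IsJ i j₀
  U : I.U = ind S.π
  ρ : ∀ μ, I.ρ μ = amp (S.R (Pi.mulSingle i μ))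
  C : I.C = {T | ∃ a : X → ℂ, BM a ∧ ∃ g : κ → Γ, g i = 1 ∧ T = mulf H a * amp (S.R g)}
  j : I.j = amp j₀
  ξ : I.ξ = cst H S.ξ
  y : ∀ g, I.y g = fld μ fun x => S.π (coc g x)

/-- the flip of legs `1` and `2` -/
structure Flip {H : Type} [NormedAddCommGroup H] [InnerProductSpace ℂ H] [CompleteSpace H]
    (S : Setting (Fin 3) H) (s : H →L[ℂ] H) : Prop where
  s_sa : star s = s
  s_s : s * s = 1
  s_π : ∀ γ, Commute s (S.π γ)
  s_ξ : s S.ξ = S.ξ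
  s_R : ∀ g, s * S.R g * s = S.R (g ∘ Equiv.swap 1 2)
  on : Orthonormal ℂ fun g => S.R g S.ξ

end Setting

end Crest.Agent.N111
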