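import Crest.Agent.N111.Main
import Crest.Agent.N111.I.Amen
import Crest.Agent.N111.I.Uniq
import Crest.Agent.N111.T.Main
import Crest.Agent.N111.C.Conc
import Crest.Agent.N111.E.Lift
import Crest.Agent.N111.F.End
import Crest.Agent.N111.B.PP
import Crest.Agent.N111.A.RedI
import Crest.Agent.N111.A.RedII
import Crest.Agent.N111.O.Out
import Crest.Agent.N111.X.Main

/-! # Row 111: all modules plugged into `main`. -/

set_option autoImplicit false

namespace Crest.Agent.N111

open Crest.OperatorAlgebra

theorem final :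
    (∀ p ∈ groupVonNeumann Γ, p * p = p → star p = p → p ≠ 1 →
      ¬ ∃ φ, IsStarAlgIso (groupVonNeumann Γ) (corner (groupVonNeumann Γ) p) φ) ∧
    ∀ (Λ : Type) [Group Λ] [Countable Λ] [Infinite Λ], IsICC Λ →
      (∃ φ, IsStarAlgIso (groupVonNeumann Λ) (groupVonNeumann Γ) φ) → Nonempty (Λ ≃* Γ) :=
  main rel tightRel tight amen conc pro lift liftComm com out uniq cross B.indStmt B.ppStmt
    B.twoStmt B.coreIStmt B.coreIIStmt redI redII

end Crest.Agent.N111
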