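import Crest.Agent.N111.Api.Bes
import Crest.Agent.N111.D.Cov1

/-!
# Row 111: assembly of `S0146` from the module statements (helper4).
-/

set_option autoImplicit false
set_option linter.unusedSectionVars false
set_option linter.unusedVariables false

namespace Crest.Agent.N111

open MeasureTheory Topology Filter Matrix
open scoped InnerProductSpace
open Crest.OperatorAlgebra

variable {K : Type} [NormedAddCommGroup K] [InnerProductSpace ℂ K] [CompleteSpace K]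

namespace Ind

variable {I I' : Ind K}

theorem IsTw.U_eq (h : I.IsTw I') (g : G) : I'.U g = I.U g := by
  rw [h.U, one_mul, mul_one]; rfl
theorem IsTw.ρ_eq (h : I.IsTw I') (μ : Γ) : I'.ρ μ = I.ρ (dl μ) := by
  rw [h.ρ, one_mul, mul_one]
theorem IsTw.ρ_eq' (h : I.IsTw I') (μ : Γ) : I.ρ μ = I'.ρ (dl μ) := by
  rw [h.ρ_eq, RelAux.dl_dl]
theorem IsTw.C_eq (h : I.IsTw I') : I'.C = I.C := by
  rw [h.C]; simp only [one_mul, mul_one, Set.image_id']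
theorem IsTw.N_eq (h : I.IsTw I') : I'.N = I.N := by rw [N, N, h.C_eq]
theorem IsTw.Q_eq (h : I.IsTw I') : I'.Q = I.Q := by
  ext T
  refine and_congr (by rw [h.N_eq]) ⟨fun hT μ => ?_, fun hT μ => ?_⟩
  · rw [h.ρ_eq']; exact hT _
  · rw [h.ρ_eq]; exact hT _
theorem IsTw.j_eq (h : I.IsTw I') : I'.j = I.j := by rw [h.j, one_mul, mul_one]
theorem IsTw.ξ_eq (h : I.IsTw I') : I'.ξ = I.ξ := h.ξ
theorem IsTw.y_eq (h : I.IsTw I') (g : G) : I'.y g = I.y g := by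
  have h1 : star (I'.y g) - star (I.y g) = 0 := by
    refine Q_eq_zero (I := I) (sub_Q (star_Q (h.Q_eq ▸ I'.y_Q g)) (star_Q (I.y_Q g))) ?_
    have := I'.star_y_ξ g
    rw [h.ξ_eq, h.U_eq] at this
    rw [_root_.sub_apply, this, I.star_y_ξ, sub_self]
  exact star_injective (sub_eq_zero.1 h1)

theorem dl_ne_one {μ : Γ} (h : μ ≠ 1) : dl μ ≠ 1 := fun e => h (by
  rw [← RelAux.dl_dl μ, e, map_one])

theorem IsTw.out (h : I.IsTw I') {P : G → K →L[ℂ] K} (hP : I'.Out P) : I.Out P where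
  sa := hP.sa
  idem := hP.idem
  cov a g := by simpa only [h.U_eq] using hP.cov a g
  wand g μ hμ := by rw [h.ρ_eq']; exact hP.wand g _ (dl_ne_one hμ)
  ne := hP.ne
  mem g := h.N_eq ▸ hP.mem g
  gen S hU hρ hj := hP.gen S (fun g => by rw [h.U_eq]; exact hU g)
    (fun μ => by rw [h.ρ_eq]; exact hρ _) (by rw [h.j_eq]; exact hj)

theorem IsTw.two (h : I.IsTw I') {s : K →L[ℂ] K} (hs : I.Two s) : I'.Two s where
  s_sa := hs.s_sa
  s_s := hs.s_s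
  s_U g := by rw [h.U_eq]; exact hs.s_U g
  s_y g := by rw [h.y_eq]; exact hs.s_y g
  s_ξ := by rw [h.ξ_eq]; exact hs.s_ξ
  ρ_C μ := by rw [h.ρ_eq, h.C_eq]; exact hs.ρ_C _
  Cρ a ha μ := by
    rw [h.C_eq] at ha
    obtain ⟨a', ha', μ', e⟩ := hs.Cρ a ha (dl μ)
    exact ⟨a', h.C_eq ▸ ha', dl μ', by rw [h.ρ_eq, e, h.ρ_eq']⟩
  jj := by rw [h.j_eq]; exact hs.jj
  jρj μ hμ := by rw [h.j_eq, h.ρ_eq]; exact hs.jρj _ (dl_ne_one hμ)
  j_j := by rw [h.j_eq]; exact hs.j_j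

end Ind

theorem x4_ne_zero (i : Fin 4) : x4 i ≠ 0 := by
  fin_cases i
  · exact ev_ne_zero 0
  · exact ev_ne_zero 1
  · exact ev_ne_zero 2
  · intro h
    have := congrFun h 0
    simp [x4, ev] at this

theorem commute_word {Y : Type} [MeasurableSpace Y] {n m : ℕ} {P : Fin n → POVM Y K}
    {Q : Fin m → POVM Y K} {f : Fin n → Y → ℂ} {g : Fin m → Y → ℂ}
    (h : ∀ i k, Commute ((P i).E (f i)) ((Q k).E (g k))) : Commute (word P f) (word Q g) := by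
  refine Commute.list_prod_left _ _ fun a ha => Commute.list_prod_right _ _ fun b hb => ?_
  obtain ⟨i, rfl⟩ := List.mem_ofFn.1 ha
  obtain ⟨k, rfl⟩ := List.mem_ofFn.1 hb
  exact h i k

/-- the boundary geometry of a tight structure -/
theorem exists_geo (hRel : RelStmt) (hTR : TightRelStmt) (hPro : ProStmt) (hLift : LiftStmt)
    (hLC : LiftCommStmt) (I : Ind K) {L : ℕ → ℝ} (hT : I.Tight L) :
    ∃ I' Φ Ψ A B sc sc', Geo I I' L Φ Ψ A B sc sc' := by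
  obtain ⟨I', hI'⟩ := hRel K I dl dl 1 (Or.inr rfl) (Or.inr rfl) (star_one _) (one_mul _)
  have hd : I.IsDual I' := hI'
  have hT' : I'.Tight L := (hTR K I I' L hT).1 hd
  obtain ⟨Φ, Ψ, hΦ, hΨ, hinc⟩ := hPro K I I' L hd hT hT'
  obtain ⟨A, sc, hA⟩ := hLift K I L Φ hT hΦ
  obtain ⟨B, sc', hB⟩ := hLift K I' L Ψ hT' hΨ
  refine ⟨I', Φ, Ψ, A, B, sc, sc', hd, hT, hT', hΦ, hΨ, hinc, hA, hB,
    hLC K I I' L Φ Ψ A sc hd hT hT' hΦ hΨ hinc hA, fun x y hx hy e f h hf hh => ?_⟩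
  exact (hLC K I' I L Ψ Φ B sc' hd.symm hT' hT hΨ hΦ hinc.symm hB y x hy hx
    ((dotProduct_comm _ _).trans e) h f hh hf).symm

/-- a tight structure among `I` and its twist -/
theorem exists_tight (hRel : RelStmt) (hTight : TightStmt) (hAmen : AmenStmt) (I : Ind K)
    (hC : I.Conc) (hP : I.PP) : ∃ (I₀ : Ind K) (L : ℕ → ℝ), I₀.Tight L ∧
      (∀ P, I₀.Out P → I.Out P) ∧ ∀ s, I.Two s → I₀.Two s := by
  obtain ⟨L, hL | hL⟩ := hTight K I hC (hAmen K I hP)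
  · exact ⟨I, L, hL, fun _ h => h, fun _ h => h⟩
  · obtain ⟨I', hI'⟩ := hRel K I (MonoidHom.id G) dl 1 (Or.inl rfl) (Or.inr rfl) (star_one _)
      (one_mul _)
    have ht : I.IsTw I' := hI'
    exact ⟨I', L, hL I' ht, fun _ h => ht.out h, fun _ h => ht.two h⟩

theorem main (hRel : RelStmt) (hTR : TightRelStmt) (hTight : TightStmt) (hAmen : AmenStmt)
    (hConc : ConcStmt) (hPro : ProStmt) (hLift : LiftStmt) (hLC : LiftCommStmt) (hCom : ComStmt)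
    (hOut : OutStmt) (hUniq : UniqStmt) (hCross : CrossStmt) (hInd : IndStmt) (hPP : PPStmt)
    (hTwo : TwoStmt) (hCI : CoreIStmt) (hCII : CoreIIStmt) (hRI : RedIStmt) (hRII : RedIIStmt) :
    (∀ p ∈ groupVonNeumann Γ, p * p = p → star p = p → p ≠ 1 →
      ¬ ∃ φ, IsStarAlgIso (groupVonNeumann Γ) (corner (groupVonNeumann Γ) p) φ) ∧
    ∀ (Λ : Type) [Group Λ] [Countable Λ] [Infinite Λ], IsICC Λ →
      (∃ φ, IsStarAlgIso (groupVonNeumann Λ) (groupVonNeumann Γ) φ) → Nonempty (Λ ≃* Γ) := by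
  refine ⟨fun p hp h1 h2 h3 hφ => ?_, fun Λ _ _ _ hΛ hφ => ?_⟩
  · obtain ⟨H, _, _, _, S, hS⟩ := hRI p hp h1 h2 h3 hφ
    obtain ⟨j₀, I, hI⟩ := hInd Unit H S ()
    obtain ⟨I₀, L, hT, hO, -⟩ := exists_tight hRel hTight hAmen I (hConc _ _ S () j₀ I hI)
      (hPP _ _ S () j₀ I hI)
    obtain ⟨I', Φ, Ψ, A, B, sc, sc', hG⟩ := exists_geo hRel hTR hPro hLift hLC I₀ hT
    obtain ⟨O, -, hout⟩ := hOut _ I₀ I' L Φ Ψ A B sc sc' hG (hCom _ I₀ I' L Φ Ψ A B sc sc' hG)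
    exact absurd (hCI H S j₀ I _ hI (hO _ hout)) hS.not_ge
  · obtain ⟨H, _, _, _, S, s, hF, hend⟩ := hRII Λ hΛ hφ
    obtain ⟨j₀, I, hI⟩ := hInd (Fin 3) H S 1
    have h2 : I.Two (amp s) := hTwo H S s j₀ I hF hI
    obtain ⟨I₀, L, hT, hO, h2'⟩ := exists_tight hRel hTight hAmen I (hConc _ _ S 1 j₀ I hI)
      (hPP _ _ S 1 j₀ I hI)
    have h0 := h2' _ h2
    obtain ⟨I', Φ, Ψ, A, B, sc, sc', hG⟩ := exists_geo hRel hTR hPro hLift hLC I₀ hT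
    obtain ⟨O, hOm, hout⟩ := hOut _ I₀ I' L Φ Ψ A B sc sc' hG (hCom _ I₀ I' L Φ Ψ A B sc sc' hG)
    obtain ⟨I₃, hI₃⟩ := hRel _ I₀ (MonoidHom.id G) (MonoidHom.id Γ) (amp s) (Or.inl rfl)
      (Or.inl rfl) h0.s_sa h0.s_s
    have hc : I₀.IsConj I₃ (amp s) := hI₃
    have hT₃ : I₃.Tight L := (hTR _ I₀ I₃ L hT).2 _ h0.s_sa h0.s_s hc
    obtain ⟨I₃', Φ₃, Ψ₃, A₃, B₃, sc₃, sc₃', hG₃⟩ := exists_geo hRel hTR hPro hLift hLC I₃ hT₃
    have hX := hCross _ I₀ I₃ I₃' (amp s) L Φ Φ₃ Ψ₃ A₃ B₃ sc₃ sc₃' h0 hc hT hG.pro hG₃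
      (hCom _ I₃ I₃' L Φ₃ Ψ₃ A₃ B₃ sc₃ sc₃' hG₃)
    have hU := hUniq _ I₀ I₃ (amp s) Φ Φ₃ h0.s_sa h0.s_s h0.s_U hc hG.pro hG₃.pro
    have hu : amp s ∈ unitary (L2X H →L[ℂ] L2X H) :=
      ⟨by rw [h0.s_sa, h0.s_s], by rw [h0.s_sa, h0.s_s]⟩
    obtain ⟨𝒯, h𝒯⟩ := hCII H S s j₀ I (P4 Φ O) hF hI (hO _ hout) fun g g' => by
      have e : amp s * P4 Φ O g' * amp s = P4 Φ₃ O g' := by
        have := word_conj (P := fun i => Φ (ac g' (x4 i))) (Q := fun i => Φ₃ (ac g' (x4 i))) hu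
          (fun i f hf => by rw [h0.s_sa, hU _ (ac_ne_zero _ (x4_ne_zero i)) f hf])
          (f := fun i => ic (O i)) fun i => BM.ic (hOm i)
        rwa [h0.s_sa] at this
      rw [e]
      exact commute_word fun i k => hX _ _ (ac_ne_zero _ (x4_ne_zero i))
        (ac_ne_zero _ (x4_ne_zero k)) _ _ (BM.ic (hOm i)) (BM.ic (hOm k))
    exact hend j₀ 𝒯 hI.hj h𝒯

end Crest.Agent.N111
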